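import Mathlib

/-! The wedge pairing on two-forms at a point of `ℝ⁴` (P247). -/

namespace Vale.Agent.P247.Circle

/-- A two-form `∑ eᵢ dx₀∧dxᵢ + ∑ bᵢ dxⱼ∧dxₖ` (`(i,j,k)` cyclic): row `0` is `e`, row `1` is `b`. -/
abbrev Form2 : Type := Fin 2 → Fin 3 → ℝ

/-- The coefficient of `dx₀∧dx₁∧dx₂∧dx₃` in the wedge product. -/
def wedge (a b : Form2) : ℝ := ∑ i, (a 0 i * b 1 i + b 0 i * a 1 i)

/-- The Gram matrix of the triple for the wedge product is positive definite. -/
def Pos (u : Fin 3 → Form2) : Prop :=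
  ∀ c : Fin 3 → ℝ, c ≠ 0 → 0 < ∑ i, ∑ j, c i * c j * wedge (u i) (u j)

theorem wedge_comm (a b : Form2) : wedge a b = wedge b a :=
  Finset.sum_congr rfl fun i _ => by ring

theorem wedge_add_left (a a' b : Form2) : wedge (a + a') b = wedge a b + wedge a' b := by
  simp only [wedge, ← Finset.sum_add_distrib]
  exact Finset.sum_congr rfl fun i _ => by simp; ring

theorem wedge_smul_left (r : ℝ) (a b : Form2) : wedge (r • a) b = r * wedge a b := by
  simp only [wedge, Finset.mul_sum]
  exact Finset.sum_congr rfl fun i _ => by simp; ring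

theorem wedge_add_right (a b b' : Form2) : wedge a (b + b') = wedge a b + wedge a b' := by
  rw [wedge_comm, wedge_add_left, wedge_comm b, wedge_comm b']

theorem wedge_smul_right (r : ℝ) (a b : Form2) : wedge a (r • b) = r * wedge a b := by
  rw [wedge_comm, wedge_smul_left, wedge_comm]

theorem wedge_sub_left (a a' b : Form2) : wedge (a - a') b = wedge a b - wedge a' b := by
  simp only [wedge, ← Finset.sum_sub_distrib]
  exact Finset.sum_congr rfl fun i _ => by simp; ring

theorem wedge_sub_right (a b b' : Form2) : wedge a (b - b') = wedge a b - wedge a b' := by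
  rw [wedge_comm, wedge_sub_left, wedge_comm b, wedge_comm b']

/-- The Gram determinant of a pair. -/
def gdet (a b : Form2) : ℝ := wedge a a * wedge b b - wedge a b * wedge a b

/-- First coefficient of the projection. -/
def cfa (a b u : Form2) : ℝ := wedge b b * wedge a u - wedge a b * wedge b u

/-- Second coefficient of the projection. -/
def cfb (a b u : Form2) : ℝ := wedge a a * wedge b u - wedge a b * wedge a u

/-- A multiple of the projection of `u` to the orthogonal complement of `a` and `b`. -/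
def proj (a b u : Form2) : Form2 := gdet a b • u - cfa a b u • a - cfb a b u • b

theorem wedge_proj_left_a (a b u : Form2) : wedge (proj a b u) a = 0 := by
  simp only [proj, wedge_sub_left, wedge_smul_left, gdet, cfa, cfb, wedge_comm u a,
    wedge_comm b a, wedge_comm u b]
  ring

theorem wedge_proj_left_b (a b u : Form2) : wedge (proj a b u) b = 0 := by
  simp only [proj, wedge_sub_left, wedge_smul_left, gdet, cfa, cfb, wedge_comm u a,
    wedge_comm b a, wedge_comm u b]
  ring

theorem wedge_proj_proj (a b u v : Form2) :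
    wedge (proj a b u) (proj a b v) = gdet a b * wedge (proj a b u) v := by
  rw [show proj a b v = gdet a b • v - cfa a b v • a - cfb a b v • b from rfl, wedge_sub_right,
    wedge_sub_right, wedge_smul_right, wedge_smul_right, wedge_smul_right, wedge_proj_left_a,
    wedge_proj_left_b]
  ring

theorem Pos.self {u : Fin 3 → Form2} (h : Pos u) (i : Fin 3) : 0 < wedge (u i) (u i) := by
  simpa [Pi.single_apply] using h (Pi.single i 1) (by simp)

theorem Pos.gdet_pos {u : Fin 3 → Form2} (h : Pos u) : 0 < gdet (u 0) (u 1) := by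
  have h1 := h.self 1
  have h2 := h ![wedge (u 1) (u 1), -wedge (u 0) (u 1), 0]
    (fun e => h1.ne' (by simpa using congrFun e 0))
  simp [Fin.sum_univ_three, wedge_comm (u 1) (u 0)] at h2
  have h3 : 0 < wedge (u 1) (u 1) * gdet (u 0) (u 1) := by
    unfold gdet; linarith
  exact pos_of_mul_pos_right h3 h1.le

theorem Pos.proj_pos {u : Fin 3 → Form2} (h : Pos u) :
    0 < wedge (proj (u 0) (u 1) (u 2)) (proj (u 0) (u 1) (u 2)) := by
  have hd := h.gdet_pos
  have h2 := h ![-cfa (u 0) (u 1) (u 2), -cfb (u 0) (u 1) (u 2), gdet (u 0) (u 1)]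
    (fun e => hd.ne' (by simpa using congrFun e 2))
  convert h2 using 1
  simp only [proj, wedge_sub_left, wedge_sub_right, wedge_smul_left, wedge_smul_right,
    Fin.sum_univ_three, Matrix.cons_val_zero, Matrix.cons_val_one, Matrix.cons_val]
  ring

theorem pair_nonneg {a b : Form2} (ha : 0 < wedge a a) (hd : 0 < gdet a b) (x y : ℝ) :
    0 ≤ x * x * wedge a a + 2 * x * y * wedge a b + y * y * wedge b b := by
  have h : wedge a a * (x * x * wedge a a + 2 * x * y * wedge a b + y * y * wedge b b) =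
      (wedge a a * x + wedge a b * y) ^ 2 + gdet a b * y ^ 2 := by unfold gdet; ring
  exact nonneg_of_mul_nonneg_right (by rw [h]; positivity) ha

theorem pair_zero {a b : Form2} (ha : 0 < wedge a a) (hd : 0 < gdet a b) {x y : ℝ}
    (h0 : x * x * wedge a a + 2 * x * y * wedge a b + y * y * wedge b b ≤ 0) : x = 0 ∧ y = 0 := by
  have h : wedge a a * (x * x * wedge a a + 2 * x * y * wedge a b + y * y * wedge b b) =
      (wedge a a * x + wedge a b * y) ^ 2 + gdet a b * y ^ 2 := by unfold gdet; ring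
  have h1 := mul_nonpos_of_nonneg_of_nonpos ha.le h0
  rw [h] at h1
  have hy : y = 0 := by
    have : gdet a b * y ^ 2 = 0 := by
      nlinarith [sq_nonneg (wedge a a * x + wedge a b * y), mul_nonneg hd.le (sq_nonneg y)]
    simpa [hd.ne'] using this
  subst hy
  refine ⟨?_, rfl⟩
  have : (wedge a a * x) ^ 2 = 0 := by nlinarith [sq_nonneg (wedge a a * x)]
  simpa [ha.ne'] using this

theorem pos_of_proj {u : Fin 3 → Form2} (ha : 0 < wedge (u 0) (u 0))
    (hd : 0 < gdet (u 0) (u 1))
    (hp : 0 < wedge (proj (u 0) (u 1) (u 2)) (proj (u 0) (u 1) (u 2))) : Pos u := by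
  intro c hc
  have key : gdet (u 0) (u 1) ^ 2 * (∑ i, ∑ j, c i * c j * wedge (u i) (u j)) =
      c 2 ^ 2 * wedge (proj (u 0) (u 1) (u 2)) (proj (u 0) (u 1) (u 2)) +
      ((gdet (u 0) (u 1) * c 0 + c 2 * cfa (u 0) (u 1) (u 2)) *
          (gdet (u 0) (u 1) * c 0 + c 2 * cfa (u 0) (u 1) (u 2)) * wedge (u 0) (u 0) +
        2 * (gdet (u 0) (u 1) * c 0 + c 2 * cfa (u 0) (u 1) (u 2)) *
          (gdet (u 0) (u 1) * c 1 + c 2 * cfb (u 0) (u 1) (u 2)) * wedge (u 0) (u 1) +
        (gdet (u 0) (u 1) * c 1 + c 2 * cfb (u 0) (u 1) (u 2)) *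
          (gdet (u 0) (u 1) * c 1 + c 2 * cfb (u 0) (u 1) (u 2)) * wedge (u 1) (u 1)) := by
    simp only [proj, wedge_sub_left, wedge_sub_right, wedge_smul_left, wedge_smul_right,
      Fin.sum_univ_three, gdet, cfa, cfb, wedge_comm (u 1) (u 0), wedge_comm (u 2) (u 0),
      wedge_comm (u 2) (u 1)]
    ring
  have hq := pair_nonneg ha hd (gdet (u 0) (u 1) * c 0 + c 2 * cfa (u 0) (u 1) (u 2))
    (gdet (u 0) (u 1) * c 1 + c 2 * cfb (u 0) (u 1) (u 2))
  by_contra hle
  have h1 := mul_nonpos_of_nonneg_of_nonpos (sq_nonneg (gdet (u 0) (u 1))) (not_lt.1 hle)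
  rw [key] at h1
  have h2 : c 2 = 0 := by
    have : c 2 ^ 2 * wedge (proj (u 0) (u 1) (u 2)) (proj (u 0) (u 1) (u 2)) = 0 := by
      nlinarith [mul_nonneg (sq_nonneg (c 2)) hp.le]
    simpa [hp.ne'] using this
  obtain ⟨hx, hy⟩ := pair_zero ha hd (x := gdet (u 0) (u 1) * c 0 + c 2 * cfa (u 0) (u 1) (u 2))
    (y := gdet (u 0) (u 1) * c 1 + c 2 * cfb (u 0) (u 1) (u 2))
    (by nlinarith [mul_nonneg (sq_nonneg (c 2)) hp.le])
  rw [h2] at hx hy
  simp [hd.ne'] at hx hy
  apply hc
  funext i
  fin_cases i <;> assumption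

/-- The self-dual part. -/
def sd : Form2 →ₗ[ℝ] (Fin 3 → ℝ) where
  toFun w := fun i => w 0 i + w 1 i
  map_add' a b := by ext i; simp; ring
  map_smul' r a := by ext i; simp; ring

theorem wedge_nonpos_of_sd {w : Form2} (h : sd w = 0) : wedge w w ≤ 0 := by
  refine Finset.sum_nonpos fun i _ => ?_
  have : w 0 i + w 1 i = 0 := congrFun h i
  rw [show w 1 i = -w 0 i by linarith]
  nlinarith [sq_nonneg (w 0 i)]

/-- Two positive vectors orthogonal to a positive plane are not orthogonal. -/
theorem cross_ne {a b u v : Form2} (ha : 0 < wedge a a) (hd : 0 < gdet a b)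
    (hu : 0 < wedge (proj a b u) (proj a b u)) (hv : 0 < wedge (proj a b v) (proj a b v)) :
    wedge (proj a b u) (proj a b v) ≠ 0 := by
  intro h0
  have h1 := wedge_proj_left_a a b u
  have h2 := wedge_proj_left_b a b u
  have h3 := wedge_proj_left_a a b v
  have h4 := wedge_proj_left_b a b v
  generalize proj a b u = p at h0 h1 h2 hu
  generalize proj a b v = q at h0 h3 h4 hv
  let L : (Fin 4 → ℝ) →ₗ[ℝ] Form2 := Fintype.linearCombination ℝ ![a, b, p, q]
  obtain ⟨c, hc, hc0⟩ : ∃ c, (sd ∘ₗ L) c = 0 ∧ c ≠ 0 := by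
    by_contra hno
    push Not at hno
    have hinj : Function.Injective (sd ∘ₗ L) := by
      rw [← LinearMap.ker_eq_bot, LinearMap.ker_eq_bot']
      exact hno
    have := LinearMap.finrank_le_finrank_of_injective hinj
    simp at this
  have hL : L c = c 0 • a + c 1 • b + c 2 • p + c 3 • q := by
    simp [L, Fintype.linearCombination_apply, Fin.sum_univ_four]
  have hle := wedge_nonpos_of_sd (w := L c) hc
  have hpair := pair_nonneg ha hd (c 0) (c 1)
  have hval : wedge (L c) (L c) = c 0 * c 0 * wedge a a + 2 * c 0 * c 1 * wedge a b +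
      c 1 * c 1 * wedge b b + c 2 ^ 2 * wedge p p + c 3 ^ 2 * wedge q q := by
    rw [hL]
    simp only [wedge_add_left, wedge_add_right, wedge_smul_left, wedge_smul_right,
      wedge_comm b a, wedge_comm a p, wedge_comm b p, wedge_comm a q, wedge_comm b q,
      wedge_comm q p, h0, h1, h2, h3, h4]
    ring
  rw [hval] at hle
  have e2 : c 2 = 0 := by
    have : c 2 ^ 2 * wedge p p = 0 := by
      nlinarith [mul_nonneg (sq_nonneg (c 2)) hu.le, mul_nonneg (sq_nonneg (c 3)) hv.le]
    simpa [hu.ne'] using this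
  have e3 : c 3 = 0 := by
    have : c 3 ^ 2 * wedge q q = 0 := by
      nlinarith [mul_nonneg (sq_nonneg (c 2)) hu.le, mul_nonneg (sq_nonneg (c 3)) hv.le]
    simpa [hv.ne'] using this
  obtain ⟨e0, e1⟩ := pair_zero ha hd (x := c 0) (y := c 1) (by
    nlinarith [mul_nonneg (sq_nonneg (c 2)) hu.le, mul_nonneg (sq_nonneg (c 3)) hv.le])
  apply hc0
  funext i
  fin_cases i <;> assumption

theorem proj_add_smul (a b u v : Form2) (r s : ℝ) :
    proj a b (r • u + s • v) = r • proj a b u + s • proj a b v := by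
  simp only [proj, cfa, cfb, wedge_add_right, wedge_smul_right]
  ext q i
  simp
  ring

end Vale.Agent.P247.Circle
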