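import Mathlib

/-! Calculus of periodic functions on `ℝ⁴`: integrals, primitives and circle averages (P247). -/

namespace Vale.Agent.P247.Circle

open scoped ContDiff
open MeasureTheory Set

/-- Points of the covering space of the torus. -/
abbrev Pt : Type := Fin 4 → ℝ

/-- Coordinate vector. -/
noncomputable def bv (k : Fin 4) : Pt := Pi.single k 1

/-- Periodicity under the integer lattice. -/
def Per {E : Type} (f : Pt → E) : Prop := ∀ x k, f (x + bv k) = f x

/-- The integral over the unit cube. -/
noncomputable def av (f : Pt → ℝ) : ℝ := ∫ x in Icc (0 : Pt) 1, f x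

/-- Partial derivative. -/
noncomputable def pd (k : Fin 4) (f : Pt → ℝ) (x : Pt) : ℝ := fderiv ℝ f x (bv k)

theorem vol_cube : (volume : Measure Pt).real (Icc (0 : Pt) 1) = 1 := by
  simp [measureReal_def, Real.volume_Icc_pi]

theorem av_const (c : ℝ) : av (fun _ => c) = c := by
  simp [av, vol_cube]

theorem av_congr {f g : Pt → ℝ} (h : ∀ x, f x = g x) : av f = av g := by
  simp only [av, h]

theorem av_int {f : Pt → ℝ} (hf : Continuous f) : IntegrableOn f (Icc (0 : Pt) 1) :=
  hf.integrableOn_Icc

theorem av_add {f g : Pt → ℝ} (hf : Continuous f) (hg : Continuous g) :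
    av (fun x => f x + g x) = av f + av g := integral_add (av_int hf) (av_int hg)

theorem av_sub {f g : Pt → ℝ} (hf : Continuous f) (hg : Continuous g) :
    av (fun x => f x - g x) = av f - av g := integral_sub (av_int hf) (av_int hg)

theorem av_const_mul (c : ℝ) (f : Pt → ℝ) : av (fun x => c * f x) = c * av f :=
  integral_const_mul c f

theorem av_mul_const (c : ℝ) (f : Pt → ℝ) : av (fun x => f x * c) = av f * c :=
  integral_mul_const c f

theorem av_neg (f : Pt → ℝ) : av (fun x => -f x) = -av f := integral_neg f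

theorem av_sum {ι : Type*} (T : Finset ι) {f : ι → Pt → ℝ} (hf : ∀ i, Continuous (f i)) :
    av (fun x => ∑ i ∈ T, f i x) = ∑ i ∈ T, av (f i) :=
  integral_finsetSum T fun i _ => av_int (hf i)

theorem av_mono {f g : Pt → ℝ} (hf : Continuous f) (hg : Continuous g) (h : ∀ x, f x ≤ g x) :
    av f ≤ av g :=
  setIntegral_mono_on (av_int hf) (av_int hg) measurableSet_Icc fun x _ => h x

theorem av_pos {f : Pt → ℝ} (hf : Continuous f) (h : ∀ x, 0 < f x) : 0 < av f := by
  obtain ⟨x0, -, hx0⟩ := isCompact_Icc.exists_isMinOn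
    (s := Icc (0 : Pt) 1) ⟨0, by simp⟩ hf.continuousOn
  have h1 : ∫ _ in Icc (0 : Pt) 1, f x0 ≤ av f :=
    setIntegral_mono_on (av_int continuous_const) (av_int hf) measurableSet_Icc fun x hx => hx0 hx
  rw [setIntegral_const, vol_cube, one_smul] at h1
  linarith [h x0]

theorem smooth_pd {f : Pt → ℝ} (hf : ContDiff ℝ ∞ f) (k : Fin 4) : ContDiff ℝ ∞ (pd k f) :=
  (hf.fderiv_right (m := ∞) (by simp)).clm_apply contDiff_const

theorem fderiv_comp_add' {E : Type} [NormedAddCommGroup E] [NormedSpace ℝ E] (f : Pt → E)
    (a x : Pt) : fderiv ℝ (fun y => f (y + a)) x = fderiv ℝ f (x + a) := fderiv_comp_add_right a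

theorem per_pd {f : Pt → ℝ} (h : Per f) (k : Fin 4) : Per (pd k f) := by
  intro x j
  have e : (fun y => f (y + bv j)) = f := funext fun y => h y j
  unfold pd
  rw [← fderiv_comp_add', e]

theorem av_pd {f : Pt → ℝ} (hf : ContDiff ℝ ∞ f) (hp : Per f) (k : Fin 4) : av (pd k f) = 0 := by
  let g : Fin 4 → Pt → ℝ := fun j => if j = k then f else fun _ => 0
  have hg : ∀ j, ContDiff ℝ ∞ (g j) := by
    intro j; simp only [g]; split_ifs <;> first | exact hf | exact contDiff_const
  have hd : ∀ x, ∑ j, fderiv ℝ (g j) x (Pi.single j 1) = pd k f x := by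
    intro x
    rw [Finset.sum_eq_single k]
    · simp [g, pd, bv]
    · intro j _ hj; simp [g, hj]
    · simp
  have key := integral_divergence_of_hasFDerivAt_off_countable (0 : Pt) 1 (fun _ => zero_le_one)
    (fun x j => g j x) (fun x => ContinuousLinearMap.pi fun j => fderiv ℝ (g j) x) ∅ countable_empty
    (continuous_pi fun j => (hg j).continuous).continuousOn
    (fun x _ => hasFDerivAt_pi.2 fun j =>
      ((hg j).differentiable (by simp)).differentiableAt.hasFDerivAt)
    (by
      simp only [ContinuousLinearMap.pi_apply, hd]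
      exact av_int (smooth_pd hf k).continuous)
  simp only [ContinuousLinearMap.pi_apply, hd] at key
  have hz : ∀ (j : Fin 4) (x : Fin 3 → ℝ),
      g j (Fin.insertNth j ((1 : Pt) j) x) = g j (Fin.insertNth j ((0 : Pt) j) x) := by
    intro j x
    have e : (Fin.insertNth j (1 : ℝ) x : Pt) = (Fin.insertNth j (0 : ℝ) x : Pt) + bv j := by
      funext i
      induction i using Fin.succAboveCases j with
      | x => simp [bv]
      | p i => simp [bv, Fin.succAbove_ne]
    simp only [Pi.one_apply, Pi.zero_apply, e]
    simp only [g]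
    split_ifs with hj
    · exact hp _ _
    · rfl
  simp only [hz, sub_self, Finset.sum_const_zero] at key
  exact key

theorem av_pd_mul {f g : Pt → ℝ} (hf : ContDiff ℝ ∞ f) (hg : ContDiff ℝ ∞ g) (pf : Per f)
    (pg : Per g) (k : Fin 4) :
    av (fun x => pd k f x * g x) = -av (fun x => f x * pd k g x) := by
  have h := av_pd (hf.mul hg) (fun x j => by simp [pf x j, pg x j]) k
  have e : ∀ x, pd k (fun y => f y * g y) x = pd k f x * g x + f x * pd k g x := by
    intro x
    unfold pd
    rw [fderiv_fun_mul ((hf.differentiable (by simp)) x) ((hg.differentiable (by simp)) x)]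
    simp
    ring
  rw [av_congr e, av_add (f := fun x => pd k f x * g x) (g := fun x => f x * pd k g x)
    ((smooth_pd hf k).continuous.mul hg.continuous)
    (hf.continuous.mul (smooth_pd hg k).continuous)] at h
  linarith

theorem av_shift {f : Pt → ℝ} (hf : ContDiff ℝ ∞ f) (hp : Per f) (t : ℝ) :
    av (fun x => f (x + t • bv 0)) = av f := by
  have hd : ∀ s : ℝ, HasDerivAt (fun s => av fun x => f (x + s • bv 0))
      (av fun x => pd 0 f (x + s • bv 0)) s := by
    intro s
    let U : Set (ℝ × Pt) := Metric.closedBall s 1 ×ˢ Icc (0 : Pt) 1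
    have hF : Continuous fun p : ℝ × Pt => pd 0 f (p.2 + p.1 • bv 0) :=
      (smooth_pd hf 0).continuous.comp (continuous_snd.add (continuous_fst.smul continuous_const))
    obtain ⟨C, hC⟩ := ((isCompact_closedBall s 1).prod (isCompact_Icc (a := (0 : Pt)) (b := 1))
      ).exists_bound_of_continuousOn hF.continuousOn
    refine (hasDerivAt_integral_of_dominated_loc_of_deriv_le
      (F := fun s x => f (x + s • bv 0)) (F' := fun s x => pd 0 f (x + s • bv 0))
      (bound := fun _ => C) (Metric.closedBall_mem_nhds s one_pos) (.of_forall fun r => ?_) ?_ ?_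
      ?_ ?_ ?_).2
    · exact (hf.continuous.comp (continuous_id.add continuous_const)).aestronglyMeasurable
    · exact av_int (hf.continuous.comp (continuous_id.add continuous_const))
    · exact ((smooth_pd hf 0).continuous.comp
        (continuous_id.add continuous_const)).aestronglyMeasurable
    · filter_upwards [ae_restrict_mem measurableSet_Icc] with x hx r hr
      exact hC (r, x) ⟨hr, hx⟩
    · exact av_int continuous_const
    · refine .of_forall fun x r _ => ?_
      have h1 : HasDerivAt (fun r : ℝ => x + r • bv 0) (bv 0) r := by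
        simpa using ((hasDerivAt_id r).smul_const (bv 0)).const_add x
      exact ((hf.differentiable (by simp)) _).hasFDerivAt.comp_hasDerivAt r h1
  have hzero : ∀ s : ℝ, (av fun x => pd 0 f (x + s • bv 0)) = 0 := by
    intro s
    have e : ∀ x, pd 0 (fun y => f (y + s • bv 0)) x = pd 0 f (x + s • bv 0) := fun x => by
      unfold pd; rw [fderiv_comp_add']
    rw [← av_congr e]
    refine av_pd (hf.comp (contDiff_id.add contDiff_const)) (fun x k => ?_) 0
    change f (x + bv k + s • bv 0) = f (x + s • bv 0)
    rw [add_right_comm]; exact hp _ _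
  have hc := is_const_of_deriv_eq_zero (fun s => (hd s).differentiableAt)
    (fun s => (hd s).deriv.trans (hzero s)) t 0
  simpa using hc

/-- The average along the circle in the zeroth coordinate. -/
noncomputable def cavg {E : Type} [NormedAddCommGroup E] [NormedSpace ℝ E] (f : Pt → E) (x : Pt) :
    E :=
  ∫ t in (0 : ℝ)..1, f (x + t • bv 0)

theorem cont_line {E : Type} [NormedAddCommGroup E] [NormedSpace ℝ E] {f : Pt → E}
    (hf : Continuous f) (x : Pt) : Continuous fun t : ℝ => f (x + t • bv 0) :=
  hf.comp (continuous_const.add (continuous_id.smul continuous_const))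

theorem cavg_hasFDerivAt {E : Type} [NormedAddCommGroup E] [NormedSpace ℝ E] [CompleteSpace E]
    {f : Pt → E} (hd : Differentiable ℝ f) (hc : Continuous (fderiv ℝ f)) (x : Pt) :
    HasFDerivAt (cavg f) (cavg (fderiv ℝ f) x) x := by
  have hF : Continuous fun p : Pt × ℝ => fderiv ℝ f (p.1 + p.2 • bv 0) :=
    hc.comp (continuous_fst.add (continuous_snd.smul continuous_const))
  obtain ⟨C, hC⟩ := ((isCompact_closedBall x 1).prod (isCompact_Icc (a := (0 : ℝ)) (b := 1))
    ).exists_bound_of_continuousOn hF.continuousOn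
  refine intervalIntegral.hasFDerivAt_integral_of_dominated_of_fderiv_le
    (F := fun y t => f (y + t • bv 0)) (F' := fun y t => fderiv ℝ f (y + t • bv 0))
    (bound := fun _ => C) (Metric.closedBall_mem_nhds x one_pos) (.of_forall fun y => ?_) ?_ ?_
    ?_ ?_ ?_
  · exact (cont_line hd.continuous y).aestronglyMeasurable
  · exact (cont_line hd.continuous x).intervalIntegrable _ _
  · exact (cont_line hc x).aestronglyMeasurable
  · refine .of_forall fun t ht y hy => hC (y, t) ⟨hy, ?_⟩
    rw [uIoc_of_le zero_le_one] at ht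
    exact ⟨ht.1.le, ht.2⟩
  · exact intervalIntegrable_const
  · exact .of_forall fun t _ y _ => by
      simpa [Function.comp_def] using
        (hd (y + t • bv 0)).hasFDerivAt.comp y ((hasFDerivAt_id y).add_const (t • bv 0))

theorem cavg_contDiff_nat : ∀ (n : ℕ) {E : Type} [NormedAddCommGroup E] [NormedSpace ℝ E]
    [CompleteSpace E] {f : Pt → E}, ContDiff ℝ ∞ f → ContDiff ℝ n (cavg f) := by
  intro n
  induction n with
  | zero =>
    intro E _ _ _ f hf
    rw [Nat.cast_zero, contDiff_zero]
    refine intervalIntegral.continuous_parametric_intervalIntegral_of_continuous'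
      (f := fun (x : Pt) (t : ℝ) => f (x + t • bv 0)) ?_ 0 1
    exact hf.continuous.comp (by fun_prop : Continuous fun p : Pt × ℝ => p.1 + p.2 • bv 0)
  | succ n ih =>
    intro E _ _ _ f hf
    have hd := hf.differentiable (by simp)
    have hf' : ContDiff ℝ ∞ (fderiv ℝ f) := hf.fderiv_right (m := ∞) (by simp)
    have h := fun x => cavg_hasFDerivAt hd hf'.continuous x
    rw [Nat.cast_succ, contDiff_succ_iff_fderiv]
    refine ⟨fun x => (h x).differentiableAt, fun hn => absurd hn (by simp), ?_⟩
    rw [show fderiv ℝ (cavg f) = cavg (fderiv ℝ f) from funext fun x => (h x).fderiv]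
    exact ih hf'

theorem cavg_smooth {f : Pt → ℝ} (hf : ContDiff ℝ ∞ f) : ContDiff ℝ ∞ (cavg f) :=
  contDiff_infty.2 fun n => cavg_contDiff_nat n hf

theorem cavg_pd {f : Pt → ℝ} (hf : ContDiff ℝ ∞ f) (k : Fin 4) (x : Pt) :
    pd k (cavg f) x = cavg (pd k f) x := by
  have hf' : ContDiff ℝ ∞ (fderiv ℝ f) := hf.fderiv_right (m := ∞) (by simp)
  unfold pd
  rw [(cavg_hasFDerivAt (hf.differentiable (by simp)) hf'.continuous x).fderiv, cavg, cavg,
    ContinuousLinearMap.intervalIntegral_apply ((cont_line hf'.continuous x).intervalIntegrable _ _)]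

theorem cavg_per {f : Pt → ℝ} (hp : Per f) : Per (cavg f) := by
  intro x k
  simp only [cavg, add_right_comm x (bv k), hp _ k]

theorem cavg_invariant {f : Pt → ℝ} (hp : Per f) (x : Pt) (s : ℝ) :
    cavg f (x + s • bv 0) = cavg f x := by
  have hper : Function.Periodic (fun t : ℝ => f (x + t • bv 0)) 1 := by
    intro t
    simp only [add_smul, one_smul, ← add_assoc]
    exact hp _ _
  have e := hper.intervalIntegral_add_eq s 0
  rw [zero_add] at e
  simp only [cavg, add_assoc, ← add_smul]
  rw [intervalIntegral.integral_comp_add_left (fun t => f (x + t • bv 0)) s, add_zero]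
  exact e

theorem cavg_of_invariant {f : Pt → ℝ} (h : ∀ x (s : ℝ), f (x + s • bv 0) = f x) (x : Pt) :
    cavg f x = f x := by
  simp [cavg, h]

theorem av_cavg {f : Pt → ℝ} (hf : ContDiff ℝ ∞ f) (hp : Per f) : av (cavg f) = av f := by
  have hc : Continuous fun p : Pt × ℝ => f (p.1 + p.2 • bv 0) :=
    hf.continuous.comp (continuous_fst.add (continuous_snd.smul continuous_const))
  have hint : Integrable (Function.uncurry fun x t => f (x + t • bv 0))
      ((volume.restrict (Icc (0 : Pt) 1)).prod (volume.restrict (Ioc (0 : ℝ) 1))) := by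
    rw [Measure.prod_restrict]
    exact (hc.continuousOn.integrableOn_compact (isCompact_Icc.prod isCompact_Icc)).mono_set
      (prod_mono subset_rfl Ioc_subset_Icc_self)
  simp only [av, cavg, intervalIntegral.integral_of_le zero_le_one]
  rw [integral_integral_swap hint]
  have e : ∀ t : ℝ, ∫ x in Icc (0 : Pt) 1, f (x + t • bv 0) = av f := av_shift hf hp
  simp [e, av]

theorem cavg_const_mul (c : ℝ) (f : Pt → ℝ) (x : Pt) :
    cavg (fun y => c * f y) x = c * cavg f x := intervalIntegral.integral_const_mul c _

/-- A closed one-form is a constant form plus the differential of a periodic function. -/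
theorem exists_potential (e : Fin 4 → Pt → ℝ) (hs : ∀ i, ContDiff ℝ ∞ (e i))
    (hp : ∀ i, Per (e i)) (hc : ∀ i j x, pd i (e j) x = pd j (e i) x) :
    ∃ φ : Pt → ℝ, ContDiff ℝ ∞ φ ∧ Per φ ∧ ∀ i x, e i x = av (e i) + pd i φ x := by
  let p : Fin 4 → Pt →L[ℝ] ℝ := fun i => ContinuousLinearMap.proj i
  let w : Pt → Pt →L[ℝ] ℝ := fun x => ∑ i, e i x • p i
  have hwa : ∀ x v, w x v = ∑ i, e i x * v i := fun x v => by simp [w, p]
  have hws : ContDiff ℝ ∞ w := ContDiff.sum fun i _ => (hs i).smul contDiff_const
  have hwd : ∀ x v u, fderiv ℝ w x v u = ∑ i, ∑ j, v i * pd i (e j) x * u j := by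
    intro x v u
    have h : HasFDerivAt w (∑ j, (fderiv ℝ (e j) x).smulRight (p j)) x :=
      HasFDerivAt.fun_sum fun j _ =>
        ((hs j).differentiable (by simp) x).hasFDerivAt.smul_const (p j)
    rw [h.fderiv]
    simp only [p, sum_apply, ContinuousLinearMap.smulRight_apply,
      FunLike.coe_smul, Pi.smul_apply, ContinuousLinearMap.proj_apply, smul_eq_mul]
    rw [Finset.sum_comm]
    refine Finset.sum_congr rfl fun j _ => ?_
    have hv : v = ∑ i, v i • bv i := by
      simp only [bv]
      rw [← Finset.univ_sum_single v]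
      simp [← Pi.single_smul]
    conv_lhs => rw [hv]
    simp only [map_sum, map_smul, smul_eq_mul, Finset.sum_mul, pd]
  obtain ⟨F, hF⟩ := convex_univ.exists_forall_hasFDerivAt_of_fderiv_symmetric isOpen_univ
    (hws.differentiable (by simp)).differentiableOn (fun a _ v u => by
      rw [hwd, hwd, Finset.sum_comm]
      refine Finset.sum_congr rfl fun i _ => Finset.sum_congr rfl fun j _ => ?_
      rw [hc i j a]; ring)
  have hF' : ∀ a, HasFDerivAt F (w a) a := fun a => hF a (mem_univ a)
  have hFs : ContDiff ℝ ∞ F := by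
    rw [contDiff_infty_iff_fderiv]
    exact ⟨fun a => (hF' a).differentiableAt,
      (show fderiv ℝ F = w from funext fun a => (hF' a).fderiv) ▸ hws⟩
  let c : Fin 4 → ℝ := fun k => F (bv k) - F 0
  have hper : ∀ k x, F (x + bv k) = F x + c k := by
    intro k x
    have hd : ∀ y, HasFDerivAt (fun y => F (y + bv k) - F y) (0 : Pt →L[ℝ] ℝ) y := by
      intro y
      have h1 : HasFDerivAt (fun y => F (y + bv k)) (w (y + bv k)) y := by
        simpa [Function.comp_def] using
          (hF' (y + bv k)).comp (f := fun y => id y + bv k) y ((hasFDerivAt_id y).add_const (bv k))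
      have hw : w (y + bv k) = w y := by
        simp only [w]; exact Finset.sum_congr rfl fun i _ => by rw [hp i y k]
      have := h1.sub (hF' y)
      rw [hw, sub_self] at this
      exact this
    have h := is_const_of_fderiv_eq_zero (fun y => (hd y).differentiableAt)
      (fun y => (hd y).fderiv) x 0
    simp only [zero_add] at h
    simp only [c]
    linarith
  let φ : Pt → ℝ := fun x => F x - ∑ i, c i * x i
  have hφ : ∀ x, HasFDerivAt φ (w x - ∑ i, c i • p i) x := fun x =>
    (hF' x).sub (HasFDerivAt.fun_sum fun i _ =>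
      (p i).hasFDerivAt.const_mul (c i))
  have hφs : ContDiff ℝ ∞ φ :=
    hFs.sub (ContDiff.sum fun i _ => contDiff_const.mul (contDiff_apply ℝ ℝ i))
  have hφp : Per φ := by
    intro x k
    simp only [φ, hper, Pi.add_apply, mul_add, Finset.sum_add_distrib]
    simp [bv, Pi.single_apply]
  have hpd : ∀ i x, pd i φ x = e i x - c i := by
    intro i x
    rw [pd, (hφ x).fderiv, sub_apply, hwa, sum_apply]
    simp [p, bv, Pi.single_apply]
  refine ⟨φ, hφs, hφp, fun i x => ?_⟩
  have h0 := av_pd hφs hφp i
  rw [av_congr (hpd i), av_sub (hs i).continuous continuous_const, av_const] at h0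
  rw [hpd]
  linarith

end Vale.Agent.P247.Circle
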