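import Vale.Agent.P247.Circle.Calc
import Vale.Agent.P247.Circle.Alg

/-! Closed two-forms on the four-torus, circle averages and cup products (P247). -/

namespace Vale.Agent.P247.Circle

open scoped ContDiff
open MeasureTheory Set

/-- A closed smooth two-form on `ℝ⁴/ℤ⁴`. -/
def IsClosed2 (w : Pt → Form2) : Prop :=
  (∀ q i, ContDiff ℝ ∞ fun x => w x q i) ∧
  (∀ x k, w (x + bv k) = w x) ∧
  (∀ x, ∑ i : Fin 3, pd i.succ (fun y => w y 1 i) x = 0) ∧
  ∀ x (i : Fin 3), pd 0 (fun y => w y 1 i) x =
    pd (i + 1).succ (fun y => w y 0 (i + 2)) x - pd (i + 2).succ (fun y => w y 0 (i + 1)) x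

/-- A triple of closed two-forms with positive definite wedge Gram matrix everywhere. -/
def Hypersymplectic (u : Fin 3 → Pt → Form2) : Prop :=
  (∀ i, IsClosed2 (u i)) ∧ ∀ x, Pos fun i => u i x

namespace IsClosed2

variable {w v : Pt → Form2}

theorem smooth (h : IsClosed2 w) (q : Fin 2) (i : Fin 3) : ContDiff ℝ ∞ fun x => w x q i := h.1 q i

theorem per (h : IsClosed2 w) (q : Fin 2) (i : Fin 3) : Per fun x => w x q i := fun x k => by
  simp only [h.2.1 x k]

theorem shift (h : IsClosed2 w) (a : Pt) : IsClosed2 fun x => w (x + a) := by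
  obtain ⟨h1, h2, h3, h4⟩ := h
  have e : ∀ (k : Fin 4) (q : Fin 2) (i : Fin 3) x,
      pd k (fun y => w (y + a) q i) x = pd k (fun y => w y q i) (x + a) := fun k q i x => by
    simp only [pd]; rw [fderiv_comp_add' (fun y => w y q i)]
  refine ⟨fun q i => (h1 q i).comp (contDiff_id.add contDiff_const), fun x k => ?_, fun x => ?_,
    fun x i => ?_⟩
  · simp only [add_right_comm x (bv k), h2]
  · simpa only [e] using h3 (x + a)
  · simpa only [e] using h4 (x + a) i

end IsClosed2

theorem pd_add {f g : Pt → ℝ} (hf : ContDiff ℝ ∞ f) (hg : ContDiff ℝ ∞ g) (k : Fin 4) (x : Pt) :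
    pd k (fun y => f y + g y) x = pd k f x + pd k g x := by
  simp only [pd, fderiv_fun_add ((hf.differentiable (by simp)) x) ((hg.differentiable (by simp)) x)]
  rfl

theorem pd_const_mul {f : Pt → ℝ} (hf : ContDiff ℝ ∞ f) (c : ℝ) (k : Fin 4) (x : Pt) :
    pd k (fun y => c * f y) x = c * pd k f x := by
  simp only [pd, fderiv_const_mul ((hf.differentiable (by simp)) x) c]
  rfl

theorem pd_mul {f g : Pt → ℝ} (hf : ContDiff ℝ ∞ f) (hg : ContDiff ℝ ∞ g) (k : Fin 4) (x : Pt) :
    pd k (fun y => f y * g y) x = pd k f x * g x + f x * pd k g x := by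
  unfold pd
  rw [fderiv_fun_mul ((hf.differentiable (by simp)) x) ((hg.differentiable (by simp)) x)]
  simp
  ring

theorem IsClosed2.lin {w v : Pt → Form2} (hw : IsClosed2 w) (hv : IsClosed2 v) (r s : ℝ) :
    IsClosed2 fun x => r • w x + s • v x := by
  have e : ∀ (k : Fin 4) (q : Fin 2) (i : Fin 3) x,
      pd k (fun y => (r • w y + s • v y) q i) x =
        r * pd k (fun y => w y q i) x + s * pd k (fun y => v y q i) x := fun k q i x => by
    simp only [Pi.add_apply, Pi.smul_apply, smul_eq_mul]
    rw [pd_add (contDiff_const.mul (hw.smooth q i)) (contDiff_const.mul (hv.smooth q i)),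
      pd_const_mul (hw.smooth q i), pd_const_mul (hv.smooth q i)]
  refine ⟨fun q i => ?_, fun x k => ?_, fun x => ?_, fun x i => ?_⟩
  · simp only [Pi.add_apply, Pi.smul_apply, smul_eq_mul]
    exact (contDiff_const.mul (hw.smooth q i)).add (contDiff_const.mul (hv.smooth q i))
  · simp only [hw.2.1 x k, hv.2.1 x k]
  · simp only [e, Finset.sum_add_distrib, ← Finset.mul_sum, hw.2.2.1 x, hv.2.2.1 x]
    ring
  · simp only [e, hw.2.2.2 x i, hv.2.2.2 x i]
    ring

/-- The circle average of a two-form. -/
noncomputable def cavgF (w : Pt → Form2) : Pt → Form2 :=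
  fun x q i => cavg (fun y => w y q i) x

theorem IsClosed2.cavgF {w : Pt → Form2} (h : IsClosed2 w) : IsClosed2 (cavgF w) := by
  have e : ∀ (k : Fin 4) (q : Fin 2) (i : Fin 3) x,
      pd k (fun y => Circle.cavgF w y q i) x = cavg (pd k fun y => w y q i) x :=
    fun k q i x => cavg_pd (h.smooth q i) k x
  have hi : ∀ (k : Fin 4) (q : Fin 2) (i : Fin 3) x,
      IntervalIntegrable (fun t : ℝ => pd k (fun y => w y q i) (x + t • bv 0)) volume 0 1 :=
    fun k q i x => (cont_line (smooth_pd (h.smooth q i) k).continuous x).intervalIntegrable _ _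
  refine ⟨fun q i => cavg_smooth (h.smooth q i), fun x k => ?_, fun x => ?_, fun x i => ?_⟩
  · funext q i; exact cavg_per (h.per q i) x k
  · simp only [e, cavg]
    rw [← intervalIntegral.integral_finsetSum fun i _ => hi _ _ i x]
    simp [h.2.2.1]
  · simp only [e, cavg]
    rw [← intervalIntegral.integral_sub (hi _ _ _ x) (hi _ _ _ x)]
    simp [h.2.2.2]

theorem pd_zero_of_invariant {f : Pt → ℝ} (hf : ContDiff ℝ ∞ f)
    (h : ∀ x (s : ℝ), f (x + s • bv 0) = f x) (x : Pt) : pd 0 f x = 0 := by
  have h1 : HasDerivAt (fun r : ℝ => x + r • bv 0) (bv 0) 0 := by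
    simpa using ((hasDerivAt_id (0 : ℝ)).smul_const (bv 0)).const_add x
  have h2 := ((hf.differentiable (by simp)) (x + (0 : ℝ) • bv 0)).hasFDerivAt.comp_hasDerivAt 0 h1
  have h3 : HasDerivAt (f ∘ fun r : ℝ => x + r • bv 0) 0 0 := by
    simpa [Function.comp_def, h] using hasDerivAt_const (0 : ℝ) (f x)
  simpa [pd] using h2.unique h3

theorem corr_deriv {f g : Pt → ℝ} (hf : ContDiff ℝ ∞ f) (hg : Continuous g) (s : ℝ) :
    HasDerivAt (fun s => av fun x => f (x + s • bv 0) * g x)
      (av fun x => pd 0 f (x + s • bv 0) * g x) s := by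
  have hF : Continuous fun p : ℝ × Pt => pd 0 f (p.2 + p.1 • bv 0) * g p.2 :=
    ((smooth_pd hf 0).continuous.comp
      (continuous_snd.add (continuous_fst.smul continuous_const))).mul (hg.comp continuous_snd)
  obtain ⟨C, hC⟩ := ((isCompact_closedBall s 1).prod (isCompact_Icc (a := (0 : Pt)) (b := 1))
    ).exists_bound_of_continuousOn hF.continuousOn
  refine (hasDerivAt_integral_of_dominated_loc_of_deriv_le
    (F := fun s x => f (x + s • bv 0) * g x) (F' := fun s x => pd 0 f (x + s • bv 0) * g x)
    (bound := fun _ => C) (Metric.closedBall_mem_nhds s one_pos) (.of_forall fun r => ?_) ?_ ?_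
    ?_ ?_ ?_).2
  · exact ((hf.continuous.comp (continuous_id.add continuous_const)).mul hg).aestronglyMeasurable
  · exact av_int ((hf.continuous.comp (continuous_id.add continuous_const)).mul hg)
  · exact (((smooth_pd hf 0).continuous.comp
      (continuous_id.add continuous_const)).mul hg).aestronglyMeasurable
  · filter_upwards [ae_restrict_mem measurableSet_Icc] with x hx r hr
    exact hC (r, x) ⟨hr, hx⟩
  · exact av_int continuous_const
  · refine .of_forall fun x r _ => ?_
    have h1 : HasDerivAt (fun r : ℝ => x + r • bv 0) (bv 0) r := by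
      simpa using ((hasDerivAt_id r).smul_const (bv 0)).const_add x
    exact (((hf.differentiable (by simp)) _).hasFDerivAt.comp_hasDerivAt r h1).mul_const (g x)

theorem av_wedge {w v : Pt → Form2} (hw : IsClosed2 w) (hv : IsClosed2 v) :
    av (fun x => wedge (w x) (v x)) = ∑ i, (av (fun x => w x 0 i * v x 1 i) +
      av (fun x => w x 1 i * v x 0 i)) := by
  have hc : ∀ i, Continuous fun x => w x 0 i * v x 1 i := fun i =>
    (hw.smooth 0 i).continuous.mul (hv.smooth 1 i).continuous
  have hc' : ∀ i, Continuous fun x => w x 1 i * v x 0 i := fun i =>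
    (hw.smooth 1 i).continuous.mul (hv.smooth 0 i).continuous
  unfold wedge
  simp only [mul_comm (v _ 0 _) (w _ 1 _)]
  rw [av_sum _ fun i => (hc i).fun_add (hc' i)]
  exact Finset.sum_congr rfl fun i _ => av_add (hc i) (hc' i)

theorem lie_pairing {w v : Pt → Form2} (hw : IsClosed2 w) (hv : IsClosed2 v) :
    ∑ i, (av (fun x => pd 0 (fun y => w y 0 i) x * v x 1 i) +
      av (fun x => pd 0 (fun y => w y 1 i) x * v x 0 i)) = 0 := by
  have d : ∀ (k : Fin 4) (i j : Fin 3), av (fun x => w x 0 i * pd k (fun y => v y 0 j) x) =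
      -av (fun x => pd k (fun y => w y 0 i) x * v x 0 j) := fun k i j => by
    rw [av_pd_mul (hw.smooth 0 i) (hv.smooth 0 j) (hw.per 0 i) (hv.per 0 j)]
    ring
  have first : ∀ i : Fin 3, av (fun x => pd 0 (fun y => w y 0 i) x * v x 1 i) =
      av (fun x => pd (i + 1).succ (fun y => w y 0 i) x * v x 0 (i + 2)) -
      av (fun x => pd (i + 2).succ (fun y => w y 0 i) x * v x 0 (i + 1)) := by
    intro i
    rw [av_pd_mul (hw.smooth 0 i) (hv.smooth 1 i) (hw.per 0 i) (hv.per 1 i)]
    simp only [hv.2.2.2 _ i, mul_sub]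
    rw [av_sub ((hw.smooth 0 i).continuous.fun_mul (smooth_pd (hv.smooth 0 _) _).continuous)
      ((hw.smooth 0 i).continuous.fun_mul (smooth_pd (hv.smooth 0 _) _).continuous), d, d]
    ring
  have second : ∀ i : Fin 3, av (fun x => pd 0 (fun y => w y 1 i) x * v x 0 i) =
      av (fun x => pd (i + 1).succ (fun y => w y 0 (i + 2)) x * v x 0 i) -
      av (fun x => pd (i + 2).succ (fun y => w y 0 (i + 1)) x * v x 0 i) := by
    intro i
    simp only [hw.2.2.2 _ i, sub_mul]
    exact av_sub ((smooth_pd (hw.smooth 0 _) _).continuous.mul (hv.smooth 0 i).continuous)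
      ((smooth_pd (hw.smooth 0 _) _).continuous.mul (hv.smooth 0 i).continuous)
  simp only [first, second, Fin.sum_univ_three]
  simp only [Fin.reduceAdd, zero_add]
  ring

theorem av_wedge_shift {w v : Pt → Form2} (hw : IsClosed2 w) (hv : IsClosed2 v) (s : ℝ) :
    av (fun x => wedge (w (x + s • bv 0)) (v x)) = av (fun x => wedge (w x) (v x)) := by
  have hd : ∀ r : ℝ, HasDerivAt (fun r => av fun x => wedge (w (x + r • bv 0)) (v x)) 0 r := by
    intro r
    have e : (fun r : ℝ => av fun x => wedge (w (x + r • bv 0)) (v x)) =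
        fun r => ∑ i, ((av fun x => w (x + r • bv 0) 0 i * v x 1 i) +
          av fun x => w (x + r • bv 0) 1 i * v x 0 i) :=
      funext fun r => av_wedge (hw.shift _) hv
    rw [e]
    have h := HasDerivAt.fun_sum (u := Finset.univ) fun (i : Fin 3) _ =>
      (corr_deriv (hw.smooth 0 i) (hv.smooth 1 i).continuous r).add
        (corr_deriv (hw.smooth 1 i) (hv.smooth 0 i).continuous r)
    have e2 : ∀ (q : Fin 2) (i : Fin 3) x, pd 0 (fun y => w y q i) (x + r • bv 0) =
        pd 0 (fun y => w (y + r • bv 0) q i) x := fun q i x => by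
      simp only [pd]; rw [fderiv_comp_add' (fun y => w y q i)]
    simp only [e2] at h
    rw [lie_pairing (hw.shift (r • bv 0)) hv] at h
    exact h
  have := is_const_of_deriv_eq_zero (fun r => (hd r).differentiableAt) (fun r => (hd r).deriv) s 0
  simpa using this

theorem wedge_cavgF {w : Pt → Form2} (hw : IsClosed2 w) (p : Form2) (x : Pt) :
    wedge p (cavgF w x) = ∫ t in (0 : ℝ)..1, wedge p (w (x + t • bv 0)) := by
  have hi : ∀ (c : ℝ) (q : Fin 2) (i : Fin 3),
      IntervalIntegrable (fun t : ℝ => c * w (x + t • bv 0) q i) volume 0 1 := fun c q i =>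
    (continuous_const.mul (cont_line (hw.smooth q i).continuous x)).intervalIntegrable _ _
  have hi' : ∀ (c : ℝ) (q : Fin 2) (i : Fin 3),
      IntervalIntegrable (fun t : ℝ => w (x + t • bv 0) q i * c) volume 0 1 := fun c q i =>
    ((cont_line (hw.smooth q i).continuous x).mul continuous_const).intervalIntegrable _ _
  simp only [wedge, cavgF, cavg]
  rw [intervalIntegral.integral_finsetSum fun i _ => (hi _ _ i).add (hi' _ _ i)]
  refine Finset.sum_congr rfl fun i _ => ?_
  rw [intervalIntegral.integral_add (hi _ _ i) (hi' _ _ i), intervalIntegral.integral_const_mul,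
    intervalIntegral.integral_mul_const]

theorem av_wedge_cavgF {w v : Pt → Form2} (hw : IsClosed2 w) (hv : IsClosed2 v) :
    av (fun x => wedge (cavgF w x) (v x)) = av (fun x => wedge (w x) (v x)) := by
  have hc : Continuous fun p : Pt × ℝ => wedge (v p.1) (w (p.1 + p.2 • bv 0)) := by
    unfold wedge
    refine continuous_finsetSum _ fun i _ => ?_
    exact (((hv.smooth 0 i).continuous.comp continuous_fst).mul ((hw.smooth 1 i).continuous.comp
      (continuous_fst.add (continuous_snd.smul continuous_const)))).add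
      (((hw.smooth 0 i).continuous.comp
        (continuous_fst.add (continuous_snd.smul continuous_const))).mul
        ((hv.smooth 1 i).continuous.comp continuous_fst))
  have hint : Integrable (Function.uncurry fun x t => wedge (v x) (w (x + t • bv 0)))
      ((volume.restrict (Icc (0 : Pt) 1)).prod (volume.restrict (Ioc (0 : ℝ) 1))) := by
    rw [Measure.prod_restrict]
    exact (hc.continuousOn.integrableOn_compact (isCompact_Icc.prod isCompact_Icc)).mono_set
      (prod_mono subset_rfl Ioc_subset_Icc_self)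
  simp only [fun x => wedge_comm (cavgF w x) (v x), fun x => wedge_cavgF hw (v x) x]
  simp only [av, intervalIntegral.integral_of_le zero_le_one]
  rw [integral_integral_swap hint]
  have e : ∀ t : ℝ, ∫ x in Icc (0 : Pt) 1, wedge (v x) (w (x + t • bv 0)) =
      ∫ x in Icc (0 : Pt) 1, wedge (w x) (v x) := fun t => by
    simp only [fun x => wedge_comm (v x) (w (x + t • bv 0))]
    exact av_wedge_shift hw hv t
  simp [e]

end Vale.Agent.P247.Circle
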