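import Vale.Agent.P247.Circle.Forms

/-! A circle preserving two of the three forms: cohomologous deformation to a hyperkähler triple
(P247). -/

namespace Vale.Agent.P247.Circle

open scoped ContDiff
open MeasureTheory Set

section Cofactor

/-- Cofactors of a three by three array given by rows. -/
def cof3 (M : Fin 3 → Fin 3 → ℝ) (l i : Fin 3) : ℝ :=
  M (l + 1) (i + 1) * M (l + 2) (i + 2) - M (l + 1) (i + 2) * M (l + 2) (i + 1)

/-- Its determinant. -/
def det3 (M : Fin 3 → Fin 3 → ℝ) : ℝ := ∑ i, M 0 i * cof3 M 0 i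

theorem row_cof (M : Fin 3 → Fin 3 → ℝ) (k l : Fin 3) :
    ∑ i, M k i * cof3 M l i = if k = l then det3 M else 0 := by
  fin_cases k <;> fin_cases l <;> simp [det3, cof3, Fin.sum_univ_three] <;> ring

theorem cof_inverse (M : Fin 3 → Fin 3 → ℝ) (v : Fin 3 → ℝ) (i : Fin 3) :
    ∑ l, (∑ k, v k * M l k) * cof3 M l i = det3 M * v i := by
  fin_cases i <;> simp [det3, cof3, Fin.sum_univ_three] <;> ring

theorem det3_eq (M : Fin 3 → Fin 3 → ℝ) : det3 M = Matrix.det (Matrix.of M) := by
  rw [Matrix.det_fin_three]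
  simp [det3, cof3, Fin.sum_univ_three]
  ring

end Cofactor

section Invariant

variable {u : Fin 3 → Pt → Form2} (hw_ : ∀ i, IsClosed2 (u i))
  (hinv : ∀ i x (s : ℝ), u i (x + s • bv 0) = u i x)

/-- The electric parts. -/
def el (u : Fin 3 → Pt → Form2) (x : Pt) : Fin 3 → Fin 3 → ℝ := fun i => u i x 0

/-- Their averages. -/
noncomputable def elAv (u : Fin 3 → Pt → Form2) : Fin 3 → Fin 3 → ℝ :=
  fun i m => av fun x => u i x 0 m

include hw_ hinv in
theorem el_curl (i m : Fin 3) (x : Pt) :
    pd (m + 1).succ (fun y => u i y 0 (m + 2)) x = pd (m + 2).succ (fun y => u i y 0 (m + 1)) x := by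
  have h := (hw_ i).2.2.2 x m
  rw [pd_zero_of_invariant ((hw_ i).smooth 1 m) (fun x s => by rw [hinv])] at h
  linarith

include hw_ hinv in
theorem el_sym (i m n : Fin 3) (x : Pt) :
    pd m.succ (fun y => u i y 0 n) x = pd n.succ (fun y => u i y 0 m) x := by
  have h0 := el_curl hw_ hinv i 0 x
  have h1 := el_curl hw_ hinv i 1 x
  have h2 := el_curl hw_ hinv i 2 x
  simp only [Fin.reduceAdd, zero_add] at h0 h1 h2
  fin_cases m <;> fin_cases n <;>
    first
      | rfl
      | exact h0
      | exact h0.symm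
      | exact h1
      | exact h1.symm
      | exact h2
      | exact h2.symm

include hw_ hinv in
theorem el_potential (i : Fin 3) : ∃ φ : Pt → ℝ, ContDiff ℝ ∞ φ ∧ Per φ ∧
    ∀ m x, u i x 0 m = elAv u i m + pd m.succ φ x := by
  let E : Fin 4 → Pt → ℝ := Fin.cons (fun _ => 0) fun m x => u i x 0 m
  have hs : ∀ k, ContDiff ℝ ∞ (E k) := by
    intro k
    induction k using Fin.cases with
    | zero => exact contDiff_const
    | succ m => exact (hw_ i).smooth 0 m
  have hp : ∀ k, Per (E k) := by
    intro k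
    induction k using Fin.cases with
    | zero => exact fun x j => rfl
    | succ m => exact (hw_ i).per 0 m
  obtain ⟨φ, h1, h2, h3⟩ := exists_potential E hs hp (fun k j x => by
    induction k using Fin.cases with
    | zero =>
      induction j using Fin.cases with
      | zero => rfl
      | succ n =>
        simp only [E, Fin.cons_zero, Fin.cons_succ]
        rw [pd_zero_of_invariant ((hw_ i).smooth 0 n) (fun x s => by rw [hinv])]
        simp [pd]
    | succ m =>
      induction j using Fin.cases with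
      | zero =>
        simp only [E, Fin.cons_zero, Fin.cons_succ]
        rw [pd_zero_of_invariant ((hw_ i).smooth 0 m) (fun x s => by rw [hinv])]
        simp [pd]
      | succ n => exact el_sym hw_ hinv i m n x)
  exact ⟨φ, h1, h2, fun m x => h3 m.succ x⟩

include hw_ hinv in
theorem av_el_mul (i : Fin 3) (b : Fin 3 → Pt → ℝ) (hb : ∀ m, ContDiff ℝ ∞ (b m))
    (pb : ∀ m, Per (b m)) (hdiv : ∀ x, ∑ m : Fin 3, pd m.succ (b m) x = 0) :
    av (fun x => ∑ m, u i x 0 m * b m x) = ∑ m, elAv u i m * av (b m) := by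
  obtain ⟨φ, hφ, pφ, e⟩ := el_potential hw_ hinv i
  have c1 : ∀ m, Continuous fun x => elAv u i m * b m x := fun m =>
    continuous_const.mul (hb m).continuous
  have c2 : ∀ m : Fin 3, Continuous fun x => pd m.succ φ x * b m x := fun m =>
    (smooth_pd hφ _).continuous.mul (hb m).continuous
  simp only [e, add_mul]
  rw [av_sum _ fun m => (c1 m).fun_add (c2 m)]
  simp only [fun m => av_add (c1 m) (c2 m), Finset.sum_add_distrib, av_const_mul]
  have z : ∑ m : Fin 3, av (fun x => pd m.succ φ x * b m x) = 0 := by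
    simp only [fun m : Fin 3 => av_pd_mul hφ (hb m) pφ (pb m) m.succ, Finset.sum_neg_distrib]
    rw [← av_sum _ fun m : Fin 3 => hφ.continuous.fun_mul (smooth_pd (hb m) _).continuous]
    simp only [← Finset.mul_sum, hdiv, mul_zero, av_const, neg_zero]
  rw [z, add_zero]

include hw_ in
theorem cof_smooth (l i : Fin 3) : ContDiff ℝ ∞ fun x => cof3 (el u x) l i :=
  (((hw_ _).smooth 0 _).mul ((hw_ _).smooth 0 _)).sub (((hw_ _).smooth 0 _).mul ((hw_ _).smooth 0 _))

include hw_ in
theorem cof_per (l i : Fin 3) : Per fun x => cof3 (el u x) l i := fun x k => by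
  simp only [cof3, el, (hw_ _).2.1 x k]

include hw_ hinv in
theorem cof_div (l : Fin 3) (x : Pt) :
    ∑ i : Fin 3, pd i.succ (fun y => cof3 (el u y) l i) x = 0 := by
  have hm : ∀ (k : Fin 4) (p r : Fin 3) (a b : Fin 3),
      pd k (fun y => u p y 0 a * u r y 0 b) x =
        pd k (fun y => u p y 0 a) x * u r x 0 b + u p x 0 a * pd k (fun y => u r y 0 b) x :=
    fun k p r a b => pd_mul ((hw_ p).smooth 0 a) ((hw_ r).smooth 0 b) k x
  have hsub : ∀ (k : Fin 4) (p r : Fin 3) (a b : Fin 3),
      pd k (fun y => u p y 0 a * u r y 0 b - u p y 0 b * u r y 0 a) x =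
        pd k (fun y => u p y 0 a * u r y 0 b) x - pd k (fun y => u p y 0 b * u r y 0 a) x := by
    intro k p r a b
    have h1 := ((hw_ p).smooth 0 a).mul ((hw_ r).smooth 0 b)
    have h2 := ((hw_ p).smooth 0 b).mul ((hw_ r).smooth 0 a)
    simp only [pd, fderiv_fun_sub ((h1.differentiable (by simp)) x)
      ((h2.differentiable (by simp)) x)]
    rfl
  simp only [cof3, el, hsub, hm, Fin.sum_univ_three]
  simp only [Fin.reduceAdd, zero_add]
  rw [el_sym hw_ hinv (l + 1) 0 1, el_sym hw_ hinv (l + 1) 0 2, el_sym hw_ hinv (l + 1) 1 2,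
    el_sym hw_ hinv (l + 2) 0 1, el_sym hw_ hinv (l + 2) 0 2, el_sym hw_ hinv (l + 2) 1 2]
  ring

include hw_ hinv in
theorem av_cof (l i : Fin 3) : av (fun x => cof3 (el u x) l i) = cof3 (elAv u) l i := by
  obtain ⟨φ, hφ, pφ, e⟩ := el_potential hw_ hinv (l + 1)
  have hn : ∀ m, Continuous fun x => u (l + 2) x 0 m := fun m =>
    ((hw_ _).smooth 0 m).continuous
  have ha : ∀ k m, Continuous fun x => pd k φ x * u (l + 2) x 0 m := fun k m =>
    (smooth_pd hφ k).continuous.mul (hn m)
  have hb : ∀ (c : ℝ) m, Continuous fun x => c * u (l + 2) x 0 m := fun c m =>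
    continuous_const.mul (hn m)
  simp only [cof3, el, e, add_mul]
  rw [av_sub ((hb _ _).fun_add (ha _ _)) ((hb _ _).fun_add (ha _ _)), av_add (hb _ _) (ha _ _),
    av_add (hb _ _) (ha _ _), av_const_mul, av_const_mul,
    av_pd_mul hφ ((hw_ _).smooth 0 _) pφ ((hw_ _).per 0 _),
    av_pd_mul hφ ((hw_ _).smooth 0 _) pφ ((hw_ _).per 0 _)]
  simp only [el_curl hw_ hinv (l + 2) i, elAv]
  ring

include hw_ hinv in
theorem av_det : av (fun x => det3 (el u x)) = det3 (elAv u) := by
  have h := av_el_mul hw_ hinv 0 (fun m x => cof3 (el u x) 0 m) (cof_smooth hw_ 0) (cof_per hw_ 0)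
    (cof_div hw_ hinv 0)
  simp only [av_cof hw_ hinv] at h
  exact h

theorem det_ne {u : Fin 3 → Form2} (hu : Pos u) : det3 (fun i => u i 0) ≠ 0 := by
  rw [det3_eq]
  intro hd
  obtain ⟨c, hc, hc0⟩ := Matrix.exists_vecMul_eq_zero_iff.2 hd
  have h := hu c hc
  have e : ∀ m, ∑ i, c i * u i 0 m = 0 := fun m => congrFun hc0 m
  have z : ∑ i, ∑ j, c i * c j * wedge (u i) (u j) =
      2 * ∑ m, (∑ i, c i * u i 0 m) * ∑ j, c j * u j 1 m := by
    simp only [wedge, Fin.sum_univ_three]; ring
  rw [z] at h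
  simp [e] at h

include hw_ hinv in
theorem det_sign (hpos : ∀ x, Pos fun i => u i x) (x : Pt) :
    0 < det3 (el u x) * det3 (elAv u) := by
  let F : Pt → ℝ := fun y => det3 (el u x) * det3 (el u y)
  have hdc : Continuous fun y => det3 (el u y) := by
    unfold det3
    exact continuous_finsetSum _ fun i _ =>
      ((hw_ 0).smooth 0 i).continuous.mul (cof_smooth hw_ 0 i).continuous
  have hne : ∀ y, det3 (el u y) ≠ 0 := fun y => det_ne (hpos y)
  have hF : ∀ y, 0 < F y := by
    intro y
    have hx : 0 < F x := mul_self_pos.2 (hne x)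
    by_contra hy
    obtain ⟨z, hz⟩ := intermediate_value_univ y x (continuous_const.mul hdc : Continuous F)
      ⟨not_lt.1 hy, hx.le⟩
    rcases mul_eq_zero.1 hz with h | h
    · exact hne x h
    · exact hne z h
  have hFc : Continuous F := continuous_const.mul hdc
  have := av_pos hFc hF
  simp only [F] at this
  rwa [av_const_mul, av_det hw_ hinv] at this

include hw_ hinv in
theorem target_exists (hpos : ∀ x, Pos fun i => u i x)
    (hG : ∀ i j, av (fun x => wedge (u i x) (u j x)) = if i = j then 1 else 0) :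
    ∃ h : Fin 3 → Pt → Form2, (∀ i, IsClosed2 (h i)) ∧ (∀ i x, h i x 0 = u i x 0) ∧
      (∀ i q m, av (fun x => h i x q m) = av (fun x => u i x q m)) ∧
      ∀ x, ∃ f : ℝ, 0 < f ∧ ∀ i j, wedge (h i x) (h j x) = if i = j then 2 * f else 0 := by
  let d := det3 (elAv u)
  let Bb : Fin 3 → Fin 3 → ℝ := fun i m => av fun x => u i x 1 m
  let C : Fin 3 → Fin 3 → ℝ := fun i l => (∑ k, Bb i k * elAv u l k) / d
  let hbm : Fin 3 → Fin 3 → Pt → ℝ := fun i m x => ∑ l, C i l * cof3 (el u x) l m
  let h : Fin 3 → Pt → Form2 := fun i x => ![u i x 0, fun m => hbm i m x]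
  have hd : d ≠ 0 := right_ne_zero_of_mul (det_sign hw_ hinv hpos 0).ne'
  have hs : ∀ i m, ContDiff ℝ ∞ (hbm i m) := fun i m =>
    ContDiff.sum fun l _ => contDiff_const.mul (cof_smooth hw_ l m)
  have hinvb : ∀ i m x (s : ℝ), hbm i m (x + s • bv 0) = hbm i m x := fun i m x s => by
    simp only [hbm, cof3, el, hinv]
  have hsym : ∀ i j, C i j + C j i = (if i = j then 1 else 0) / d := by
    intro i j
    have key : ∀ a b, av (fun x => ∑ m, u a x 0 m * u b x 1 m) = ∑ m, elAv u a m * Bb b m :=
      fun a b => av_el_mul hw_ hinv a (fun m x => u b x 1 m) ((hw_ b).smooth 1) ((hw_ b).per 1)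
        (hw_ b).2.2.1
    have hc : ∀ a b, Continuous fun x => ∑ m, u a x 0 m * u b x 1 m := fun a b =>
      continuous_finsetSum _ fun m _ =>
        ((hw_ a).smooth 0 m).continuous.mul ((hw_ b).smooth 1 m).continuous
    have hw := hG i j
    simp only [wedge, Finset.sum_add_distrib] at hw
    rw [av_add (hc i j) (hc j i), key, key] at hw
    rw [← hw]
    simp only [C, Fin.sum_univ_three]
    field_simp
    ring
  refine ⟨h, fun i => ⟨?_, ?_, ?_, ?_⟩, fun i x => rfl, ?_, fun x => ?_⟩
  · intro q m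
    fin_cases q
    · exact (hw_ i).smooth 0 m
    · exact hs i m
  · intro x k
    funext q m
    fin_cases q
    · exact (hw_ i).per 0 m x k
    · simp only [h, hbm]
      change (∑ l, C i l * cof3 (el u (x + bv k)) l m) = ∑ l, C i l * cof3 (el u x) l m
      exact Finset.sum_congr rfl fun l _ => congrArg (C i l * ·) (cof_per hw_ l m x k)
  · intro x
    change ∑ m : Fin 3, pd m.succ (hbm i m) x = 0
    have e : ∀ (m : Fin 3) (k : Fin 4),
        pd k (hbm i m) x = ∑ l, C i l * pd k (fun y => cof3 (el u y) l m) x := by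
      intro m k
      simp only [hbm, pd]
      rw [fderiv_fun_sum fun l _ =>
        ((contDiff_const.mul (cof_smooth hw_ l m)).differentiable (by simp)) x, sum_apply]
      refine Finset.sum_congr rfl fun l _ => ?_
      rw [fderiv_const_mul (((cof_smooth hw_ l m).differentiable (by simp)) x)]
      rfl
    simp only [e]
    rw [Finset.sum_comm]
    simp [← Finset.mul_sum, cof_div hw_ hinv]
  · intro x m
    change pd 0 (hbm i m) x = pd (m + 1).succ (fun y => u i y 0 (m + 2)) x -
      pd (m + 2).succ (fun y => u i y 0 (m + 1)) x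
    rw [pd_zero_of_invariant (hs i m) (hinvb i m), el_curl hw_ hinv, sub_self]
  · intro i q m
    fin_cases q
    · rfl
    · change av (hbm i m) = Bb i m
      simp only [hbm]
      rw [av_sum _ fun l => continuous_const.fun_mul (cof_smooth hw_ l m).continuous]
      simp only [av_const_mul, av_cof hw_ hinv, C]
      have := cof_inverse (elAv u) (Bb i) m
      simp only [Fin.sum_univ_three] at this ⊢
      field_simp
      linear_combination this
  · have hsg := det_sign hw_ hinv hpos x
    refine ⟨det3 (el u x) / (2 * d), ?_, fun i j => ?_⟩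
    · rw [show det3 (el u x) / (2 * d) = det3 (el u x) * d / (2 * (d * d)) by field_simp]
      exact div_pos hsg (mul_pos two_pos (mul_self_pos.2 hd))
    · have e : wedge (h i x) (h j x) = ∑ l, C j l * (∑ m, el u x i m * cof3 (el u x) l m) +
          ∑ l, C i l * (∑ m, el u x j m * cof3 (el u x) l m) := by
        simp [wedge, h, hbm, el, Fin.sum_univ_three]
        ring
      rw [e]
      simp only [row_cof, mul_ite, mul_zero, Finset.sum_ite_eq, Finset.mem_univ, if_true]
      rw [← add_mul, add_comm (C j i), hsym]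
      split_ifs <;> field_simp <;> ring

end Invariant

theorem main {u : Fin 3 → Pt → Form2} (hw_ : Hypersymplectic u)
    (hinv : ∀ i, i ≠ 2 → ∀ x (s : ℝ), u i (x + s • bv 0) = u i x)
    (hG : ∀ i j, av (fun x => wedge (u i x) (u j x)) = if i = j then 1 else 0) :
    ∃ Ω : ℝ → Fin 3 → Pt → Form2,
      (∀ i q m, ContDiff ℝ ∞ fun p : ℝ × Pt => Ω p.1 i p.2 q m) ∧ Ω 0 = u ∧
      (∀ s, Hypersymplectic (Ω s) ∧
        ∀ i q m, av (fun x => Ω s i x q m) = av (fun x => u i x q m)) ∧
      ∀ x, ∃ f : ℝ, 0 < f ∧ ∀ i j, wedge (Ω 1 i x) (Ω 1 j x) = if i = j then 2 * f else 0 := by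
  obtain ⟨hcl, hp⟩ := hw_
  let wb : Fin 3 → Pt → Form2 := fun i => cavgF (u i)
  have hbcl : ∀ i, IsClosed2 (wb i) := fun i => (hcl i).cavgF
  have hbeq : ∀ i, i ≠ 2 → ∀ x, wb i x = u i x := fun i hi x => by
    funext q m
    exact cavg_of_invariant (fun y s => by rw [hinv i hi]) x
  have hbinv : ∀ i x (s : ℝ), wb i (x + s • bv 0) = wb i x := fun i x s => by
    funext q m
    exact cavg_invariant ((hcl i).per q m) x s
  have h0i : ∀ x (s : ℝ), u 0 (x + s • bv 0) = u 0 x := hinv 0 (by decide)
  have h1i : ∀ x (s : ℝ), u 1 (x + s • bv 0) = u 1 x := hinv 1 (by decide)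
  have hgd : ∀ x, 0 < gdet (u 0 x) (u 1 x) := fun x => (hp x).gdet_pos
  have hprojpos : ∀ x (t : ℝ), 0 < wedge (proj (u 0 x) (u 1 x) (u 2 (x + t • bv 0)))
      (proj (u 0 x) (u 1 x) (u 2 (x + t • bv 0))) := fun x t => by
    have := (hp (x + t • bv 0)).proj_pos
    rwa [h0i, h1i] at this
  have hcont : ∀ (p : Form2) x, Continuous fun t : ℝ => wedge p (u 2 (x + t • bv 0)) := fun p x => by
    unfold wedge
    exact continuous_finsetSum _ fun i _ =>
      (continuous_const.mul (cont_line ((hcl 2).smooth 1 i).continuous x)).add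
        ((cont_line ((hcl 2).smooth 0 i).continuous x).mul continuous_const)
  have hcross : ∀ x (r t : ℝ), 0 < wedge (proj (u 0 x) (u 1 x) (u 2 (x + r • bv 0)))
      (proj (u 0 x) (u 1 x) (u 2 (x + t • bv 0))) := by
    intro x r t
    let F : ℝ → ℝ := fun t => wedge (proj (u 0 x) (u 1 x) (u 2 (x + r • bv 0)))
      (proj (u 0 x) (u 1 x) (u 2 (x + t • bv 0)))
    have hFc : Continuous F := by
      simp only [F, wedge_proj_proj]
      exact continuous_const.mul (hcont _ x)
    by_contra hneg
    obtain ⟨z, hz⟩ := intermediate_value_univ t r hFc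
      ⟨not_lt.1 hneg, (hprojpos x r).le⟩
    exact cross_ne ((hp x).self 0) (hgd x) (hprojpos x r) (hprojpos x z) hz
  have hto : ∀ x (r : ℝ), 0 < wedge (proj (u 0 x) (u 1 x) (u 2 (x + r • bv 0)))
      (proj (u 0 x) (u 1 x) (wb 2 x)) := by
    intro x r
    rw [wedge_proj_proj, wedge_cavgF (hcl 2), ← intervalIntegral.integral_const_mul]
    refine intervalIntegral.intervalIntegral_pos_of_pos
      ((continuous_const.mul (hcont _ x)).intervalIntegrable _ _) (fun t => ?_) zero_lt_one
    have := hcross x r t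
    rwa [wedge_proj_proj] at this
  have hmean : ∀ x, 0 < wedge (proj (u 0 x) (u 1 x) (wb 2 x))
      (proj (u 0 x) (u 1 x) (wb 2 x)) := by
    intro x
    rw [wedge_proj_proj, wedge_cavgF (hcl 2), ← intervalIntegral.integral_const_mul]
    refine intervalIntegral.intervalIntegral_pos_of_pos
      ((continuous_const.mul (hcont _ x)).intervalIntegrable _ _) (fun t => ?_) zero_lt_one
    have := hto x t
    rwa [wedge_comm, wedge_proj_proj] at this
  have hseg : ∀ r : ℝ, 0 ≤ r → r ≤ 1 → ∀ x,
      Pos fun i => (1 - r) • u i x + r • wb i x := by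
    intro r hr0 hr1 x
    have e : ∀ i, i ≠ 2 → (1 - r) • u i x + r • wb i x = u i x := fun i hi => by
      rw [hbeq i hi, ← add_smul, sub_add_cancel, one_smul]
    refine pos_of_proj ?_ ?_ ?_
    · simpa [e 0 (by decide)] using (hp x).self 0
    · simpa [e 0 (by decide), e 1 (by decide)] using hgd x
    · simp only [e 0 (by decide), e 1 (by decide), proj_add_smul, wedge_add_left, wedge_add_right,
        wedge_smul_left, wedge_smul_right]
      rw [wedge_comm (proj (u 0 x) (u 1 x) (wb 2 x)) (proj (u 0 x) (u 1 x) (u 2 x))]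
      have a := hprojpos x 0
      have b := hmean x
      have c := hto x 0
      simp only [zero_smul, add_zero] at a c
      rcases hr0.eq_or_lt with rfl | hr
      · norm_num; linarith
      · have h1 := mul_nonneg (mul_nonneg (sub_nonneg.2 hr1) hr0) c.le
        have h2 := mul_nonneg (sq_nonneg (1 - r)) a.le
        have h3 := mul_pos (mul_pos hr hr) b
        nlinarith
  have hbpos : ∀ x, Pos fun i => wb i x := fun x => by
    simpa using hseg 1 zero_le_one le_rfl x
  have hbG : ∀ i j, av (fun x => wedge (wb i x) (wb j x)) = if i = j then 1 else 0 := by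
    intro i j
    rw [← hG i j]
    have key : ∀ a b : Fin 3, b ≠ 2 → av (fun x => wedge (wb a x) (wb b x)) =
        av (fun x => wedge (u a x) (u b x)) := fun a b hb => by
      simp only [hbeq b hb]; exact av_wedge_cavgF (hcl a) (hcl b)
    rw [av_wedge_cavgF (hcl i) (hbcl j)]
    simp only [fun x => wedge_comm (u i x) (wb j x)]
    rw [av_wedge_cavgF (hcl j) (hcl i)]
    exact av_congr fun x => wedge_comm _ _
  obtain ⟨hk, hkcl, hke, hkav, hkhk⟩ := target_exists hbcl hbinv hbpos hbG
  let φ1 : ℝ → ℝ := fun s => Real.smoothTransition (2 * s)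
  let φ2 : ℝ → ℝ := fun s => Real.smoothTransition (2 * s - 1)
  have hφ1 : ContDiff ℝ ∞ φ1 :=
    Real.smoothTransition.contDiff.comp (contDiff_const.mul contDiff_id)
  have hφ2 : ContDiff ℝ ∞ φ2 :=
    Real.smoothTransition.contDiff.comp ((contDiff_const.mul contDiff_id).sub contDiff_const)
  let Ω : ℝ → Fin 3 → Pt → Form2 := fun s i x =>
    (1 - φ1 s) • u i x + (1 : ℝ) • ((φ1 s - φ2 s) • wb i x + φ2 s • hk i x)
  refine ⟨Ω, ?_, ?_, fun s => ⟨⟨fun i => ?_, fun x => ?_⟩, fun i q m => ?_⟩, fun x => ?_⟩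
  · intro i q m
    simp only [Ω, Pi.add_apply, Pi.smul_apply, smul_eq_mul, one_mul]
    exact ((contDiff_const.sub (hφ1.comp contDiff_fst)).mul
      (((hcl i).smooth q m).comp contDiff_snd)).add
      ((((hφ1.comp contDiff_fst).sub (hφ2.comp contDiff_fst)).mul
        (((hbcl i).smooth q m).comp contDiff_snd)).add
        ((hφ2.comp contDiff_fst).mul (((hkcl i).smooth q m).comp contDiff_snd)))
  · funext i x
    have a : φ1 0 = 0 := Real.smoothTransition.zero_of_nonpos (by norm_num)
    have b : φ2 0 = 0 := Real.smoothTransition.zero_of_nonpos (by norm_num)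
    simp [Ω, a, b]
  · exact (hcl i).lin ((hbcl i).lin (hkcl i) _ _) _ _
  · by_cases hb : φ2 s = 0
    · have := hseg (φ1 s) (Real.smoothTransition.nonneg _) (Real.smoothTransition.le_one _) x
      simpa [Ω, hb] using this
    · have ha : φ1 s = 1 := Real.smoothTransition.one_of_one_le (by
        by_contra h
        exact hb (Real.smoothTransition.zero_of_nonpos (by linarith)))
      have h0 := Real.smoothTransition.nonneg (2 * s - 1)
      have h1 := Real.smoothTransition.le_one (2 * s - 1)
      obtain ⟨f, hf, hfe⟩ := hkhk x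
      intro c hc
      have hQ := hbpos x c hc
      have e : ∀ i j, wedge (Ω s i x) (Ω s j x) = (1 - φ2 s) * wedge (wb i x) (wb j x) +
          φ2 s * wedge (hk i x) (hk j x) := by
        intro i j
        simp [Ω, ha, wedge, hke, Fin.sum_univ_three]
        ring
      simp only [e, hfe, mul_add, Finset.sum_add_distrib]
      have hsq : ∑ i : Fin 3, ∑ j : Fin 3, c i * c j * (φ2 s * if i = j then 2 * f else 0) =
          φ2 s * (2 * f) * ∑ i, c i ^ 2 := by
        simp only [Finset.mul_sum, mul_ite, mul_zero, Finset.sum_ite_eq, Finset.mem_univ, if_true]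
        exact Finset.sum_congr rfl fun i _ => by ring
      have hlin : ∑ i : Fin 3, ∑ j : Fin 3, c i * c j * ((1 - φ2 s) * wedge (wb i x) (wb j x)) =
          (1 - φ2 s) * ∑ i, ∑ j, c i * c j * wedge (wb i x) (wb j x) := by
        simp only [Finset.mul_sum]
        exact Finset.sum_congr rfl fun i _ => Finset.sum_congr rfl fun j _ => by ring
      rw [hsq, hlin]
      have hcs : 0 < ∑ i, c i ^ 2 := by
        obtain ⟨i, hi⟩ := Function.ne_iff.1 hc
        exact Finset.sum_pos' (fun j _ => sq_nonneg _)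
          ⟨i, Finset.mem_univ i, lt_of_le_of_ne (sq_nonneg _) (Ne.symm (pow_ne_zero 2 hi))⟩
      have hpos2 : 0 < φ2 s * (2 * f) * ∑ i, c i ^ 2 :=
        mul_pos (mul_pos (lt_of_le_of_ne h0 (Ne.symm hb)) (by linarith)) hcs
      linarith [mul_nonneg (sub_nonneg.2 h1) hQ.le]
  · simp only [Ω, Pi.add_apply, Pi.smul_apply, smul_eq_mul, one_mul]
    have c0 := ((hcl i).smooth q m).continuous
    have c1 := ((hbcl i).smooth q m).continuous
    have c2 := ((hkcl i).smooth q m).continuous
    rw [av_add (continuous_const.fun_mul c0)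
      ((continuous_const.fun_mul c1).fun_add (continuous_const.fun_mul c2)),
      av_add (continuous_const.fun_mul c1) (continuous_const.fun_mul c2), av_const_mul,
      av_const_mul, av_const_mul, hkav]
    rw [show av (fun x => wb i x q m) = av (fun x => u i x q m) from
      av_cavg ((hcl i).smooth q m) ((hcl i).per q m)]
    ring
  · obtain ⟨f, hf, hfe⟩ := hkhk x
    refine ⟨f, hf, fun i j => ?_⟩
    have a : φ1 1 = 1 := Real.smoothTransition.one_of_one_le (by norm_num)
    have b : φ2 1 = 1 := Real.smoothTransition.one_of_one_le (by norm_num)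
    simp [Ω, a, b, hfe]

end Vale.Agent.P247.Circle
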